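import Vale.Agent.P042.MathlibUsed

set_option autoImplicit false

/-!
The Euler product bound for arbitrary weights, and row EUL with the weight `p ^ ceil (e / 2)`.
-/

namespace Vale.Agent.P042.H668.E2

open Finset

variable (w : ℕ → ℕ → ℝ)

/-- The weight of `n`. -/
noncomputable def Wt (n : ℕ) : ℝ := ∏ p ∈ n.primeFactors, w p (n.factorization p)

/-- The numbers up to `N` all of whose prime factors lie in `P`. -/
def SS (N : ℕ) (P : Finset ℕ) : Finset ℕ := (Icc 1 N).filter (fun n => n.primeFactors ⊆ P)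

/-- The local factor. -/
noncomputable def G (p e : ℕ) : ℝ := if e = 0 then 1 else w p e / (p : ℝ) ^ e

variable {w}

lemma G_nonneg (hw : ∀ p e, 0 ≤ w p e) (p e : ℕ) : 0 ≤ G w p e := by
  unfold G
  split_ifs
  · exact zero_le_one
  · exact div_nonneg (hw p e) (by positivity)

lemma Wt_nonneg (hw : ∀ p e, 0 ≤ w p e) (n : ℕ) : 0 ≤ Wt w n :=
  prod_nonneg fun p _ => hw p _

/-- Splitting off one prime. -/
lemma W_split {n q : ℕ} (hn : n ≠ 0) (hq : q.Prime) :
    Wt w n / n = G w q (n.factorization q) *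
      (Wt w (n / q ^ n.factorization q) / ((n / q ^ n.factorization q : ℕ) : ℝ)) := by
  set e := n.factorization q with he
  set m := n / q ^ e with hm
  have h1 : q ^ e * m = n := Nat.ordProj_mul_ordCompl_eq_self n q
  have hm0 : m ≠ 0 := by
    rintro h
    rw [h, mul_zero] at h1
    exact hn h1.symm
  have hfac : m.factorization = n.factorization.erase q := Nat.factorization_ordCompl n q
  have hpf : m.primeFactors = n.primeFactors.erase q := by
    rw [← Nat.support_factorization, hfac, Finsupp.support_erase, Nat.support_factorization]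
  have hW : Wt w m = ∏ p ∈ n.primeFactors.erase q, w p (n.factorization p) := by
    unfold Wt
    rw [hpf]
    refine prod_congr rfl fun p hp => ?_
    rw [hfac, Finsupp.erase_ne (ne_of_mem_erase hp)]
  have hnr : (n : ℝ) = (q : ℝ) ^ e * (m : ℝ) := by
    rw [← h1]; push_cast; ring
  have hq0 : (q : ℝ) ≠ 0 := by exact_mod_cast hq.ne_zero
  have hmr : (m : ℝ) ≠ 0 := by exact_mod_cast hm0
  by_cases he0 : e = 0
  · have hmem : q ∉ n.primeFactors := by
      rw [← Nat.support_factorization, Finsupp.notMem_support_iff]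
      exact he.symm.trans he0
    have hmn : Wt w m = Wt w n := by
      rw [hW, erase_eq_of_notMem hmem]
      rfl
    rw [hmn, hnr, he0]
    simp [G]
  · have hmem : q ∈ n.primeFactors := by
      rw [← Nat.support_factorization, Finsupp.mem_support_iff]
      exact fun h => he0 (he.trans h)
    have hWn : Wt w n = w q e * Wt w m := by
      rw [hW]
      exact (mul_prod_erase n.primeFactors (fun p => w p (n.factorization p)) hmem).symm
    rw [hWn, hnr]
    unfold G
    rw [if_neg he0]
    field_simp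

lemma sum_insert_le (hw : ∀ p e, 0 ≤ w p e) {c : ℝ}
    (h : ∀ q : ℕ, q.Prime → ∀ N, ∑ e ∈ range (N + 1), G w q e ≤ 1 + c / q) {q : ℕ} (hq : q.Prime) (N : ℕ) (P : Finset ℕ) :
    ∑ n ∈ SS N (insert q P), Wt w n / n ≤ (1 + c / q) * ∑ n ∈ SS N P, Wt w n / n := by
  classical
  let φ : ℕ → ℕ × ℕ := fun n => (n.factorization q, n / q ^ n.factorization q)
  let h0 : ℕ × ℕ → ℝ := fun x => G w q x.1 * (Wt w x.2 / (x.2 : ℝ))
  have hh : ∀ x, 0 ≤ h0 x := fun x =>
    mul_nonneg (G_nonneg hw _ _) (div_nonneg (Wt_nonneg hw _) (Nat.cast_nonneg _))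
  have hinj : Set.InjOn φ (SS N (insert q P)) := by
    intro a ha b hb hab
    have h1 : q ^ a.factorization q * (a / q ^ a.factorization q) = a :=
      Nat.ordProj_mul_ordCompl_eq_self a q
    have h2 : q ^ b.factorization q * (b / q ^ b.factorization q) = b :=
      Nat.ordProj_mul_ordCompl_eq_self b q
    have h3 : a.factorization q = b.factorization q := congrArg Prod.fst hab
    have h4 : a / q ^ a.factorization q = b / q ^ b.factorization q := congrArg Prod.snd hab
    rw [← h1, ← h2, h4, h3]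
  have hsub : (SS N (insert q P)).image φ ⊆ range (N + 1) ×ˢ SS N P := by
    intro x hx
    obtain ⟨n, hn, rfl⟩ := mem_image.1 hx
    unfold SS at hn
    rw [mem_filter, mem_Icc] at hn
    obtain ⟨⟨hn1, hnN⟩, hnP⟩ := hn
    have hn0 : n ≠ 0 := by omega
    rw [mem_product]
    constructor
    · rw [mem_range]
      have := Nat.factorization_lt q hn0
      change n.factorization q < N + 1
      omega
    · unfold SS
      rw [mem_filter, mem_Icc]
      have hfac : (n / q ^ n.factorization q).factorization = n.factorization.erase q :=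
        Nat.factorization_ordCompl n q
      refine ⟨⟨?_, ?_⟩, ?_⟩
      · exact Nat.ordCompl_pos q hn0
      · exact (Nat.div_le_self _ _).trans hnN
      · change (n / q ^ n.factorization q).primeFactors ⊆ P
        rw [← Nat.support_factorization, hfac, Finsupp.support_erase, Nat.support_factorization]
        intro p hp
        have h1 := hnP (mem_of_mem_erase hp)
        rcases mem_insert.1 h1 with h2 | h2
        · exact absurd h2 (ne_of_mem_erase hp)
        · exact h2
  have h1 : ∑ n ∈ SS N (insert q P), Wt w n / n = ∑ n ∈ SS N (insert q P), h0 (φ n) := by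
    refine sum_congr rfl fun n hn => ?_
    have hn1 : 1 ≤ n := by
      unfold SS at hn
      exact (mem_Icc.1 (mem_filter.1 hn).1).1
    exact W_split (by omega) hq
  rw [h1, ← sum_image hinj]
  refine (sum_le_sum_of_subset_of_nonneg hsub fun x _ _ => hh x).trans ?_
  rw [sum_product]
  change ∑ e ∈ range (N + 1), ∑ m ∈ SS N P, G w q e * (Wt w m / (m : ℝ)) ≤ _
  rw [← sum_mul_sum]
  exact mul_le_mul_of_nonneg_right (h q hq N)
    (sum_nonneg fun m _ => div_nonneg (Wt_nonneg hw _) (Nat.cast_nonneg _))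

lemma sum_SS_le (hw : ∀ p e, 0 ≤ w p e) {c : ℝ}
    (h : ∀ q : ℕ, q.Prime → ∀ N, ∑ e ∈ range (N + 1), G w q e ≤ 1 + c / q) (N : ℕ) (P : Finset ℕ) (hP : ∀ p ∈ P, p.Prime) :
    ∑ n ∈ SS N P, Wt w n / n ≤ Real.exp (c * ∑ p ∈ P, (1 : ℝ) / p) := by
  classical
  induction P using Finset.induction_on with
  | empty =>
    rw [sum_empty, mul_zero, Real.exp_zero]
    have hsub : SS N ∅ ⊆ {1} := by
      intro n hn
      unfold SS at hn
      rw [mem_filter, mem_Icc] at hn
      have h1 := hn.2
      rw [subset_empty, Nat.primeFactors_eq_empty] at h1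
      rw [mem_singleton]
      omega
    refine (sum_le_sum_of_subset_of_nonneg hsub fun n _ _ =>
      div_nonneg (Wt_nonneg hw _) (Nat.cast_nonneg _)).trans ?_
    simp [Wt]
  | insert q P hqP ih =>
    have hq : q.Prime := hP q (mem_insert_self _ _)
    have ih' := ih fun p hp => hP p (mem_insert_of_mem hp)
    refine (sum_insert_le hw h hq N P).trans ?_
    rw [sum_insert hqP, mul_add, Real.exp_add]
    have h1 : 1 + c / q ≤ Real.exp (c * (1 / q)) := by
      have h2 := Real.add_one_le_exp (c * (1 / (q : ℝ)))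
      have h3 : c * (1 / (q : ℝ)) = c / q := by ring
      rw [h3] at h2 ⊢
      linarith
    exact mul_le_mul h1 ih' (sum_nonneg fun m _ =>
      div_nonneg (Wt_nonneg hw _) (Nat.cast_nonneg _)) (Real.exp_pos _).le

/-- The Euler product bound. -/
theorem euler_bound (hw : ∀ p e, 0 ≤ w p e) {c : ℝ}
    (h : ∀ q : ℕ, q.Prime → ∀ N, ∑ e ∈ range (N + 1), G w q e ≤ 1 + c / q) (N : ℕ) :
    ∑ n ∈ Icc 1 N, Wt w n / n ≤
      Real.exp (c * ∑ p ∈ (Icc 1 N).filter Nat.Prime, (1 : ℝ) / p) := by
  have hP : ∀ p ∈ (Icc 1 N).filter Nat.Prime, p.Prime := fun p hp => (mem_filter.1 hp).2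
  refine le_trans (le_of_eq ?_) (sum_SS_le hw h N ((Icc 1 N).filter Nat.Prime) hP)
  refine sum_congr ?_ fun _ _ => rfl
  unfold SS
  refine (filter_true_of_mem fun n hn => ?_).symm
  intro p hp
  rw [mem_Icc] at hn
  rw [mem_filter, mem_Icc]
  have h1 := Nat.prime_of_mem_primeFactors hp
  exact ⟨⟨h1.one_lt.le, (Nat.le_of_mem_primeFactors hp).trans hn.2⟩, h1⟩

/-- The weight `z` at `e = 1`, `p ^ ceil (e / 2)` otherwise. -/
noncomputable def wt2 (z : ℝ) (p e : ℕ) : ℝ := if e = 1 then z else (p : ℝ) ^ ((e + 1) / 2)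

lemma sum_pairs (r : ℝ) (m : ℕ) :
    ∑ j ∈ range (2 * m), r ^ ((j + 2) / 2) = 2 * (r * ∑ i ∈ range m, r ^ i) := by
  induction m with
  | zero => simp
  | succ m ih =>
    rw [show 2 * (m + 1) = 2 * m + 1 + 1 by ring, sum_range_succ, sum_range_succ, ih,
      sum_range_succ]
    have h1 : (2 * m + 2) / 2 = m + 1 := by omega
    have h2 : (2 * m + 1 + 2) / 2 = m + 1 := by omega
    rw [h1, h2, pow_succ]
    ring

lemma sum_wt2_le {z : ℝ} (hz : 1 ≤ z) {q : ℕ} (hq : q.Prime) (N : ℕ) :
    ∑ e ∈ range (N + 1), G (wt2 z) q e ≤ 1 + (z + 4) / q := by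
  have hq2 : (2 : ℝ) ≤ q := by exact_mod_cast hq.two_le
  have hq0 : (0 : ℝ) < q := by linarith
  set r : ℝ := 1 / (q : ℝ) with hr
  have hr0 : 0 < r := by positivity
  have hr12 : r ≤ 1 / 2 := one_div_le_one_div_of_le (by norm_num) hq2
  have hG0 : G (wt2 z) q 0 = 1 := by simp [G]
  have hG1 : G (wt2 z) q 1 = z / q := by simp [G, wt2]
  have hG2 : ∀ j, G (wt2 z) q (j + 2) = r ^ ((j + 2) / 2) := by
    intro j
    unfold G wt2
    rw [if_neg (by omega), if_neg (by omega), hr, one_div, inv_pow, eq_comm,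
      inv_eq_iff_eq_inv, inv_div, eq_div_iff (by positivity), ← pow_add]
    congr 1
    omega
  rcases N with _ | k
  · rw [sum_range_one, hG0]
    have : 0 ≤ (z + 4) / q := by positivity
    linarith
  · rw [sum_range_succ', sum_range_succ', hG0, hG1]
    have h1 : ∑ j ∈ range k, G (wt2 z) q (j + 1 + 1) ≤ 4 / q := by
      have h2 : ∑ j ∈ range k, G (wt2 z) q (j + 1 + 1) ≤
          ∑ j ∈ range (2 * k), r ^ ((j + 2) / 2) := by
        rw [sum_congr rfl fun j _ => hG2 j]
        exact sum_le_sum_of_subset_of_nonneg (range_mono (by omega))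
          fun j _ _ => by positivity
      rw [sum_pairs] at h2
      have h3 : (∑ j ∈ range k, r ^ j) * (1 - r) = 1 - r ^ k := geom_sum_mul_neg r k
      have h4 : 0 ≤ ∑ j ∈ range k, r ^ j := sum_nonneg fun j _ => by positivity
      have h5 : 0 ≤ r ^ k := by positivity
      have h6 : ∑ j ∈ range k, r ^ j ≤ 2 := by nlinarith
      have h7 : 4 / (q : ℝ) = 2 * (r * 2) := by rw [hr]; ring
      rw [h7]
      refine h2.trans ?_
      gcongr
    have h7 : (z + 4) / q = z / q + 4 / q := by ring
    have h8 : G (wt2 z) q (0 + 1) = z / q := hG1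
    linarith

lemma wt2_nonneg {z : ℝ} (hz : 0 ≤ z) (p e : ℕ) : 0 ≤ wt2 z p e := by
  unfold wt2
  split_ifs
  · exact hz
  · positivity

/-- Row EUL for the weight `wt2`. -/
theorem eul2 (N : ℕ) (z : ℝ) (hz : 1 ≤ z) : ∑ n ∈ Icc 1 N, Wt (wt2 z) n / n ≤
    Real.exp ((z + 4) * ∑ p ∈ (Icc 1 N).filter Nat.Prime, (1 : ℝ) / p) :=
  euler_bound (fun p e => wt2_nonneg (by linarith) p e)
    (fun _ hq N => sum_wt2_le hz hq N) N

end Vale.Agent.P042.H668.E2
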