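import Vale.Agent.P042.R2.H757.Spec

set_option autoImplicit false

/-!
Rows MER and NUM of P042.MultiplicativeStatistics.
-/

namespace Vale.Agent.P042.H668

open Finset Vale.Agent.P042.H757

/-- The primes with a given binary logarithm. -/
lemma dyadic_card (N j : ℕ) :
    j * (((Icc 1 N).filter Nat.Prime).filter (fun p => Nat.log 2 p = j)).card ≤ 2 ^ (j + 2) := by
  set T := ((Icc 1 N).filter Nat.Prime).filter (fun p => Nat.log 2 p = j) with hT
  have hmem : ∀ p ∈ T, p.Prime ∧ 2 ^ j ≤ p ∧ p < 2 ^ (j + 1) := by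
    intro p hp
    rw [hT, mem_filter, mem_filter] at hp
    obtain ⟨⟨_, hpp⟩, hlog⟩ := hp
    refine ⟨hpp, ?_, ?_⟩
    · rw [← hlog]
      exact Nat.pow_log_le_self 2 hpp.ne_zero
    · rw [← hlog]
      exact Nat.lt_pow_succ_log_self (by norm_num) p
  have h1 : (2 ^ j) ^ T.card ≤ ∏ p ∈ T, p := by
    refine pow_card_le_prod T (fun p => p) (2 ^ j) fun p hp => (hmem p hp).2.1
  have h2 : ∏ p ∈ T, p ≤ primorial (2 ^ (j + 1)) := by
    unfold primorial
    refine prod_le_prod_of_subset_of_one_le' ?_ ?_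
    · intro p hp
      obtain ⟨h3, h4, h5⟩ := hmem p hp
      rw [mem_filter, mem_range]
      exact ⟨by omega, h3⟩
    · intro p hp _
      exact (mem_filter.1 hp).2.one_lt.le
  have h3 : primorial (2 ^ (j + 1)) ≤ 4 ^ (2 ^ (j + 1)) := primorial_le_four_pow _
  have h4 : (2 : ℕ) ^ (j * T.card) ≤ 2 ^ (2 ^ (j + 2)) := by
    calc (2 : ℕ) ^ (j * T.card) = (2 ^ j) ^ T.card := by rw [pow_mul]
      _ ≤ 4 ^ (2 ^ (j + 1)) := h1.trans (h2.trans h3)
      _ = 2 ^ (2 ^ (j + 2)) := by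
        rw [show (4 : ℕ) = 2 ^ 2 by norm_num, ← pow_mul]
        congr 1
        ring
  exact (Nat.pow_le_pow_iff_right (by norm_num)).1 h4

lemma dyadic_sum (N j : ℕ) (hj : 1 ≤ j) :
    ∑ p ∈ ((Icc 1 N).filter Nat.Prime).filter (fun p => Nat.log 2 p = j), (1 : ℝ) / p ≤
      4 * (j : ℝ)⁻¹ := by
  set T := ((Icc 1 N).filter Nat.Prime).filter (fun p => Nat.log 2 p = j) with hT
  have hcard : (j : ℝ) * T.card ≤ 2 ^ (j + 2) := by exact_mod_cast dyadic_card N j
  have hj0 : (0 : ℝ) < j := by exact_mod_cast hj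
  have h1 : ∑ p ∈ T, (1 : ℝ) / p ≤ T.card • ((1 : ℝ) / 2 ^ j) := by
    refine sum_le_card_nsmul T _ _ fun p hp => ?_
    rw [hT, mem_filter, mem_filter] at hp
    obtain ⟨⟨_, hpp⟩, hlog⟩ := hp
    have h2 : 2 ^ j ≤ p := by
      rw [← hlog]
      exact Nat.pow_log_le_self 2 hpp.ne_zero
    have h3 : (2 : ℝ) ^ j ≤ p := by exact_mod_cast h2
    exact one_div_le_one_div_of_le (by positivity) h3
  refine h1.trans ?_
  rw [nsmul_eq_mul, mul_one_div, div_le_iff₀ (by positivity)]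
  have h4 : 4 * (j : ℝ)⁻¹ * 2 ^ j = 2 ^ (j + 2) / j := by
    rw [pow_add]
    field_simp
    ring
  rw [h4, le_div_iff₀ hj0]
  linarith

/-- Row MER. -/
theorem rowMer : StMer := by
  refine ⟨6, by norm_num, fun N hN => ?_⟩
  set M := Nat.log 2 N with hM
  have hmaps : ∀ p ∈ (Icc 1 N).filter Nat.Prime, Nat.log 2 p ∈ Icc 1 M := by
    intro p hp
    rw [mem_filter, mem_Icc] at hp
    rw [mem_Icc]
    refine ⟨?_, Nat.log_mono_right hp.1.2⟩
    exact Nat.log_pos (by norm_num) hp.2.two_le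
  rw [← sum_fiberwise_of_maps_to hmaps]
  have h1 : ∑ j ∈ Icc 1 M,
      ∑ p ∈ ((Icc 1 N).filter Nat.Prime).filter (fun p => Nat.log 2 p = j), (1 : ℝ) / p ≤
      ∑ j ∈ Icc 1 M, 4 * (j : ℝ)⁻¹ :=
    sum_le_sum fun j hj => dyadic_sum N j (mem_Icc.1 hj).1
  refine h1.trans ?_
  rw [← mul_sum]
  have h2 : ∑ j ∈ Icc 1 M, (j : ℝ)⁻¹ ≤ 1 + Real.log M := by
    have h3 := harmonic_le_one_add_log M
    have h4 : ((harmonic M : ℚ) : ℝ) = ∑ j ∈ Icc 1 M, (j : ℝ)⁻¹ := by
      rw [harmonic_eq_sum_Icc]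
      push_cast
      rfl
    rwa [h4] at h3
  have hM1 : 1 ≤ M := by
    rw [hM]
    exact Nat.log_pos (by norm_num) (by omega)
  have hN0 : (0 : ℝ) < N := by
    have : 0 < N := by omega
    exact_mod_cast this
  have hM0 : (0 : ℝ) < M := by exact_mod_cast hM1
  have h5 : (M : ℝ) * Real.log 2 ≤ Real.log N := by
    have h6 : (2 : ℝ) ^ M ≤ N := by
      exact_mod_cast Nat.pow_log_le_self 2 (by omega : N ≠ 0)
    have h7 := Real.log_le_log (by positivity) h6
    rwa [Real.log_pow] at h7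
  have hl2 : (0.69 : ℝ) < Real.log 2 := by
    have := Real.log_two_gt_d9
    linarith
  have hlogN : 1 ≤ Real.log N := by
    have h8 : (3 : ℝ) ≤ N := by exact_mod_cast hN
    have h9 : Real.exp 1 ≤ 3 := by
      have := Real.exp_one_lt_d9
      linarith
    rw [Real.le_log_iff_exp_le hN0]
    exact h9.trans h8
  have h10 : (M : ℝ) ≤ Real.log N * (3 / 2) := by nlinarith
  have h11 : Real.log M ≤ Real.log (Real.log N) + Real.log (3 / 2) := by
    rw [← Real.log_mul (by linarith) (by norm_num)]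
    exact Real.log_le_log hM0 h10
  have h12 : Real.log (3 / 2) ≤ 1 / 2 := by
    have := Real.log_le_sub_one_of_pos (show (0 : ℝ) < 3 / 2 by norm_num)
    linarith
  have h13 : 0 ≤ Real.log (Real.log N) := Real.log_nonneg hlogN
  linarith

/-- Row NUM. -/
theorem rowNum : StNum := by
  intro k hk K ε hK hε
  have hk0 : (0 : ℝ) ≤ k := Nat.cast_nonneg k
  set θ : ℝ := (2 * k + 1 : ℝ) / (2 * k + 2) with hθ
  have hθ1 : θ < 1 := by
    rw [hθ, div_lt_one (by positivity)]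
    linarith
  have hθ0 : 0 ≤ θ := by positivity
  set η : ℝ := (1 - θ) / 2 with hη
  have hη0 : 0 < η := by rw [hη]; linarith
  set τ : ℝ := θ + η with hτ
  have hτ1 : 0 < 1 - τ := by rw [hτ, hη]; linarith
  set a : ℝ := K * 6 * (1 + 1 / η) with ha
  have ha0 : 0 < a := by positivity
  set X : ℝ := (a / ε) ^ (1 / (1 - τ)) with hX
  have hX0 : 0 < X := Real.rpow_pos_of_pos (by positivity) _
  refine ⟨Real.exp (a * X ^ τ), Real.exp_pos _, fun N hN => ?_⟩
  have hN0 : (0 : ℝ) < N := by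
    have : 0 < N := by omega
    exact_mod_cast this
  set x : ℝ := Real.log N with hx
  have hx1 : 1 ≤ x := by
    have h8 : (3 : ℝ) ≤ N := by exact_mod_cast hN
    have h9 : Real.exp 1 ≤ 3 := by
      have := Real.exp_one_lt_d9
      linarith
    rw [hx, Real.le_log_iff_exp_le hN0]
    exact h9.trans h8
  have hx0 : 0 < x := by linarith
  rw [Real.rpow_def_of_pos hN0, ← Real.exp_add]
  apply Real.exp_le_exp.2
  have h1 : Real.log x ≤ x ^ η / η := Real.log_le_rpow_div hx0.le hη0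
  have h2 : 1 ≤ x ^ η := Real.one_le_rpow hx1 hη0.le
  have h3 : 1 ≤ x ^ θ := Real.one_le_rpow hx1 hθ0
  have hlog0 : 0 ≤ Real.log x := Real.log_nonneg hx1
  have h4 : 1 + Real.log x ≤ x ^ η * (1 + 1 / η) := by
    have : x ^ η * (1 + 1 / η) = x ^ η + x ^ η / η := by ring
    rw [this]
    linarith
  have h5 : x ^ θ + 5 ≤ 6 * x ^ θ := by linarith
  have h6 : K * (x ^ θ + 5) * (1 + Real.log x) ≤ a * x ^ τ := by
    calc K * (x ^ θ + 5) * (1 + Real.log x)
        ≤ K * (6 * x ^ θ) * (x ^ η * (1 + 1 / η)) := by gcongr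
      _ = a * (x ^ θ * x ^ η) := by rw [ha]; ring
      _ = a * x ^ τ := by rw [← Real.rpow_add hx0]
  refine h6.trans ?_
  have hXt : 0 ≤ a * X ^ τ := by positivity
  rcases le_total X x with h | h
  · have h7 : a / ε ≤ x ^ (1 - τ) := by
      have h8 : X ^ (1 - τ) = a / ε := by
        rw [hX, ← Real.rpow_mul (by positivity), one_div, inv_mul_cancel₀ hτ1.ne', Real.rpow_one]
      rw [← h8]
      exact Real.rpow_le_rpow hX0.le h hτ1.le
    have h9 : a ≤ ε * x ^ (1 - τ) := by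
      rw [div_le_iff₀ hε] at h7
      linarith
    have h10 : x ^ (1 - τ) * x ^ τ = x := by
      rw [← Real.rpow_add hx0]
      simp
    have h11 : a * x ^ τ ≤ ε * x := by
      calc a * x ^ τ ≤ (ε * x ^ (1 - τ)) * x ^ τ := by gcongr
        _ = ε * (x ^ (1 - τ) * x ^ τ) := by ring
        _ = ε * x := by rw [h10]
    linarith
  · have hτ0 : 0 ≤ τ := by rw [hτ]; linarith
    have h7 : x ^ τ ≤ X ^ τ := Real.rpow_le_rpow hx0.le h hτ0
    have h8 : a * x ^ τ ≤ a * X ^ τ := by gcongr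
    have h9 : 0 ≤ x * ε := by positivity
    linarith

end Vale.Agent.P042.H668
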